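import Vale.Agent.P224.POS.Psd

/-!
Certificate data: Gram matrices 8,9,10,11,12,13 and their positive semidefiniteness.
-/

namespace Vale.Agent.P224.PO.M3

open Vale.Agent.P224.POS

noncomputable section

/-- Gram matrix of block 8 ((u1-E)*sca00), rows of the lower triangle -/
def G8 : List (List Int) := rowsZ 512 [
  410,
  222440] 0

/-- witness of block 8 -/
def W8 : List (List Nat) := rowsN 32 [
  25,
  813] 0

set_option maxRecDepth 100000 in
theorem psd8 : psdChk 16 1 27 W8 G8 = true := by decide +kernel

/-- Gram matrix of block 9 ((u1-E)*sca10), rows of the lower triangle -/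
def G9 : List (List Int) := rowsZ 1024 [
  700,
  831914] 0

/-- witness of block 9 -/
def W9 : List (List Nat) := rowsN 32 [
  26,
  904] 0

set_option maxRecDepth 100000 in
theorem psd9 : psdChk 16 1 28 W9 G9 = true := by decide +kernel

/-- Gram matrix of block 10 ((u1-E)*sca11), rows of the lower triangle -/
def G10 : List (List Int) := rowsZ 65536 [
  37344,
  3692716644] 0

/-- witness of block 10 -/
def W10 : List (List Nat) := rowsN 512 [
  315,
  169598] 0

set_option maxRecDepth 100000 in
theorem psd10 : psdChk 256 1 384 W10 G10 = true := by decide +kernel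

/-- Gram matrix of block 11 (r(u1-E)*sca00), rows of the lower triangle -/
def G11 : List (List Int) := rowsZ 512 [
  442,
  252092] 0

/-- witness of block 11 -/
def W11 : List (List Nat) := rowsN 32 [
  26,
  873] 0

set_option maxRecDepth 100000 in
theorem psd11 : psdChk 16 1 27 W11 G11 = true := by decide +kernel

/-- Gram matrix of block 12 (r(u1-E)*sca10), rows of the lower triangle -/
def G12 : List (List Int) := rowsZ 4096 [
  2594,
  13559140] 0

/-- witness of block 12 -/
def W12 : List (List Nat) := rowsN 64 [
  53,
  2945] 0

set_option maxRecDepth 100000 in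
theorem psd12 : psdChk 32 1 29 W12 G12 = true := by decide +kernel

/-- Gram matrix of block 13 (r(u1-E)*sca11), rows of the lower triangle -/
def G13 : List (List Int) := rowsZ 1048576 [
  670590,
  985816912204] 0

/-- witness of block 13 -/
def W13 : List (List Nat) := rowsN 2048 [
  1403,
  2271619] 0

set_option maxRecDepth 100000 in
theorem psd13 : psdChk 1024 1 932 W13 G13 = true := by decide +kernel

end

end Vale.Agent.P224.PO.M3
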