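import Vale.Agent.P224.PO.RowsO

/-!
Certificate data in dimension 3: value terms and rows.
-/

namespace Vale.Agent.P224.PO.M3

open Vale.Agent.P224.UE Vale.Agent.P224.POS Vale.Agent.P224.PO

noncomputable section

/-- the rows: integer coefficient and term (family, e, i, j, d, k, l) -/
def rows : List (Int × HTerm) := [
  (-5018848, ⟨0, -3, 0, 0, 0, 0, 0⟩),
  (-16431392, ⟨0, -1, 0, 0, 0, 0, 0⟩),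
  (18589392, ⟨0, 0, 0, 0, 0, 0, 0⟩),
  (-8056624, ⟨0, 1, 0, 0, 0, 0, 0⟩),
  (372096, ⟨0, -3, 2, 0, 0, 0, 0⟩),
  (-922856, ⟨0, -2, 2, 0, 0, 0, 0⟩),
  (3223504, ⟨0, -1, 2, 0, 0, 0, 0⟩),
  (-689912, ⟨0, 0, 2, 0, 0, 0, 0⟩),
  (-6610416, ⟨1, -1, 1, 0, 0, 0, 0⟩),
  (5694048, ⟨1, 0, 1, 0, 0, 0, 0⟩),
  (411008, ⟨1, 1, 1, 0, 0, 0, 0⟩),
  (4982752, ⟨3, -3, 0, 0, 0, 0, 0⟩),
  (-1411824, ⟨3, -1, 0, 0, 0, 0, 0⟩),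
  (2328256, ⟨3, 0, 0, 0, 0, 0, 0⟩),
  (699184, ⟨3, 1, 0, 0, 0, 0, 0⟩),
  (-122408, ⟨3, -3, 2, 0, 0, 0, 0⟩),
  (-42984, ⟨3, -2, 2, 0, 0, 0, 0⟩),
  (9085328, ⟨0, -3, 0, 0, 0, 1, 0⟩),
  (11035448, ⟨0, -2, 0, 0, 0, 1, 0⟩),
  (60756472, ⟨0, -1, 0, 0, 0, 1, 0⟩),
  (-33613640, ⟨0, 0, 0, 0, 0, 1, 0⟩),
  (16726480, ⟨0, 1, 0, 0, 0, 1, 0⟩),
  (-73079000, ⟨0, -3, 1, 0, 1, 0, 0⟩),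
  (39776896, ⟨0, -2, 1, 0, 1, 0, 0⟩),
  (-383802008, ⟨0, -1, 1, 0, 1, 0, 0⟩),
  (2568216, ⟨0, 0, 1, 0, 1, 0, 0⟩),
  (9643496, ⟨0, 1, 1, 0, 1, 0, 0⟩),
  (35906256, ⟨0, -3, 1, 1, 0, 0, 0⟩),
  (-60880864, ⟨0, -2, 1, 1, 0, 0, 0⟩),
  (-39698640, ⟨0, -1, 1, 1, 0, 0, 0⟩),
  (-8924984, ⟨0, 0, 1, 1, 0, 0, 0⟩),
  (-1954592, ⟨0, 1, 1, 1, 0, 0, 0⟩),
  (1756312, ⟨1, -1, 1, 0, 0, 1, 0⟩),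
  (-4905784, ⟨1, 0, 1, 0, 0, 1, 0⟩),
  (2844336, ⟨1, 1, 1, 0, 0, 1, 0⟩),
  (-21447504, ⟨1, -2, 0, 0, 1, 0, 0⟩),
  (237817944, ⟨1, -1, 0, 0, 1, 0, 0⟩),
  (7011392, ⟨1, 0, 0, 0, 1, 0, 0⟩),
  (-710448488, ⟨1, 1, 0, 0, 1, 0, 0⟩),
  (-732992, ⟨1, -3, 2, 0, 1, 0, 0⟩),
  (-1978280, ⟨1, -2, 2, 0, 1, 0, 0⟩),
  (2040008, ⟨1, -1, 2, 0, 1, 0, 0⟩),
  (21447504, ⟨1, -2, 0, 1, 0, 0, 0⟩),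
  (69037288, ⟨1, -1, 0, 1, 0, 0, 0⟩),
  (5916328, ⟨1, 0, 0, 1, 0, 0, 0⟩),
  (-164939320, ⟨1, 1, 0, 1, 0, 0, 0⟩),
  (743704, ⟨1, -3, 2, 1, 0, 0, 0⟩),
  (-158064, ⟨1, -2, 2, 1, 0, 0, 0⟩),
  (59320, ⟨1, -1, 2, 1, 0, 0, 0⟩),
  (-9894088, ⟨3, -3, 0, 0, 0, 1, 0⟩),
  (11035448, ⟨3, -2, 0, 0, 0, 1, 0⟩),
  (32258440, ⟨3, -1, 0, 0, 0, 1, 0⟩),
  (-2746704, ⟨3, 0, 0, 0, 0, 1, 0⟩),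
  (-59416, ⟨3, 1, 0, 0, 0, 1, 0⟩),
  (-22380640, ⟨3, -3, 1, 0, 1, 0, 0⟩),
  (51314816, ⟨3, -2, 1, 0, 1, 0, 0⟩),
  (-22983592, ⟨3, -1, 1, 0, 1, 0, 0⟩),
  (61762072, ⟨3, -3, 1, 1, 0, 0, 0⟩),
  (-54420640, ⟨3, -2, 1, 1, 0, 0, 0⟩),
  (20511696, ⟨3, -1, 1, 1, 0, 0, 0⟩),
  (10412056, ⟨5, -2, 1, 0, 0, 0, 0⟩),
  (-18484048, ⟨5, -1, 1, 0, 0, 0, 0⟩),
  (13883016, ⟨5, 0, 1, 0, 0, 0, 0⟩),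
  (-3431352, ⟨5, 1, 1, 0, 0, 0, 0⟩),
  (-8262200, ⟨0, -3, 0, 0, 0, 0, 1⟩),
  (-48366888, ⟨0, -1, 0, 0, 0, 0, 1⟩),
  (726568, ⟨0, 0, 0, 0, 0, 0, 1⟩),
  (-829912, ⟨0, -3, 0, 0, 0, 2, 0⟩),
  (32263920, ⟨0, -1, 0, 0, 0, 2, 0⟩),
  (17862688, ⟨0, 0, 0, 0, 0, 2, 0⟩),
  (-8840760, ⟨0, 1, 0, 0, 0, 2, 0⟩),
  (-2759056, ⟨0, -3, 0, 0, 2, 0, 0⟩),
  (54938920, ⟨0, -2, 0, 0, 2, 0, 0⟩),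
  (9098672, ⟨0, -1, 0, 0, 2, 0, 0⟩),
  (135205280, ⟨0, 0, 0, 0, 2, 0, 0⟩),
  (-11459144, ⟨0, 1, 0, 0, 2, 0, 0⟩),
  (-24209048, ⟨0, -3, 0, 1, 1, 0, 0⟩),
  (-41591136, ⟨0, -2, 0, 1, 1, 0, 0⟩),
  (-293819016, ⟨0, -1, 0, 1, 1, 0, 0⟩),
  (-264036168, ⟨0, 0, 0, 1, 1, 0, 0⟩),
  (93666144, ⟨0, 1, 0, 1, 1, 0, 0⟩),
  (-42998120, ⟨0, -3, 0, 2, 0, 0, 0⟩),
  (-13347784, ⟨0, -2, 0, 2, 0, 0, 0⟩),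
  (-767456, ⟨1, -1, 1, 0, 0, 2, 0⟩),
  (-2305104, ⟨1, 0, 1, 0, 0, 2, 0⟩),
  (144491240, ⟨1, -1, 0, 0, 1, 1, 0⟩),
  (-136047944, ⟨1, 0, 0, 0, 1, 1, 0⟩),
  (18311696, ⟨1, 1, 0, 0, 1, 1, 0⟩),
  (3627456, ⟨1, -3, 1, 0, 2, 0, 0⟩),
  (-12415976, ⟨1, -2, 1, 0, 2, 0, 0⟩),
  (-10339056, ⟨1, -1, 1, 0, 2, 0, 0⟩),
  (-12476808, ⟨1, 0, 1, 0, 2, 0, 0⟩),
  (22422064, ⟨1, -1, 0, 1, 0, 1, 0⟩),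
  (1745976, ⟨1, 0, 0, 1, 0, 1, 0⟩),
  (-41360, ⟨1, 1, 0, 1, 0, 1, 0⟩),
  (17086344, ⟨1, -3, 1, 1, 1, 0, 0⟩),
  (-9619672, ⟨1, -2, 1, 1, 1, 0, 0⟩),
  (4375464, ⟨1, -1, 1, 1, 1, 0, 0⟩),
  (-19072408, ⟨1, 0, 1, 1, 1, 0, 0⟩),
  (-20713800, ⟨1, -3, 1, 2, 0, 0, 0⟩),
  (22035648, ⟨1, -2, 1, 2, 0, 0, 0⟩),
  (-20460024, ⟨1, -1, 1, 2, 0, 0, 0⟩),
  (-3743544, ⟨1, 0, 1, 2, 0, 0, 0⟩),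
  (91408552, ⟨2, -1, 0, 0, 1, 0, 0⟩),
  (521649064, ⟨2, 0, 0, 0, 1, 0, 0⟩),
  (-1285812408, ⟨2, 1, 0, 0, 1, 0, 0⟩),
  (-71510608, ⟨2, -1, 0, 1, 0, 0, 0⟩),
  (-199886648, ⟨2, 0, 0, 1, 0, 0, 0⟩),
  (236978064, ⟨2, 1, 0, 1, 0, 0, 0⟩),
  (7729624, ⟨3, -3, 0, 0, 0, 0, 1⟩),
  (-6140800, ⟨3, -3, 0, 0, 0, 2, 0⟩),
  (384024, ⟨3, -1, 0, 0, 0, 2, 0⟩),
  (1259592, ⟨3, 0, 0, 0, 0, 2, 0⟩),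
  (69171928, ⟨3, -3, 0, 0, 2, 0, 0⟩),
  (28483176, ⟨3, -2, 0, 0, 2, 0, 0⟩),
  (23994488, ⟨3, -3, 0, 1, 1, 0, 0⟩),
  (-6293120, ⟨3, -2, 0, 1, 1, 0, 0⟩),
  (-1475168, ⟨3, -1, 0, 1, 1, 0, 0⟩),
  (25752144, ⟨3, 0, 0, 1, 1, 0, 0⟩),
  (-26303656, ⟨3, -3, 0, 2, 0, 0, 0⟩),
  (-22190056, ⟨3, -2, 0, 2, 0, 0, 0⟩),
  (32308304, ⟨3, -1, 0, 2, 0, 0, 0⟩),
  (2640728, ⟨3, 0, 0, 2, 0, 0, 0⟩),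
  (-13612560, ⟨5, -1, 0, 0, 1, 0, 0⟩),
  (71123080, ⟨5, 0, 0, 0, 1, 0, 0⟩),
  (-85257808, ⟨5, 1, 0, 0, 1, 0, 0⟩),
  (23188872, ⟨5, -1, 0, 1, 0, 0, 0⟩),
  (-59731144, ⟨5, 0, 0, 1, 0, 0, 0⟩)]

/-- the polynomial of the certificate (`8 D rr ^ 5` times the pointwise expression) -/
def P : PE := lhsH 3 5 33554432 20341896 (-121629928) 202899960 (-151904248) (-52720720) 59731144 19270832 0 rows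

set_option maxRecDepth 100000 in
lemma rows_ok_all : (rows.all fun x => x.2.ok 3) = true := by decide +kernel

set_option maxRecDepth 100000 in
lemma rows_e_all : (rows.all fun x => decide (0 ≤ ((5 : ℕ) : ℤ) + x.2.e - 2)) = true := by
  decide +kernel

lemma rows_e : ∀ x ∈ rows, 0 ≤ ((5 : ℕ) : ℤ) + x.2.e - 2 := fun x hx =>
  of_decide_eq_true (List.all_eq_true.1 rows_e_all x hx)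

/-- all rows are admissible -/
lemma rows_ok : ∀ cT ∈ rlH 33554432 rows, cT.2.ok 3 = true := by
  intro cT hcT
  unfold rlH at hcT
  obtain ⟨x, hx, rfl⟩ := List.mem_map.1 hcT
  exact List.all_eq_true.1 rows_ok_all x hx

/-- the pointwise inequality from the positivity of the polynomial -/
theorem pos_of {d : R9} (hd : d 0 < 1) (h : 0 ≤ PE.ev (vh d) P) :
    0 ≤ W9 (33554432 / 33554432) (20341896 / 33554432) (-121629928 / 33554432) (202899960 / 33554432) (-151904248 / 33554432) (-52720720 / 33554432) (59731144 / 33554432) (19270832 / 33554432) (0 / 33554432) d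
      + hsum 3 (rlH 33554432 rows) d := by
  have h1 := nonneg_of_lhsH hd 3 (K := 5) (D := 33554432) (by norm_num) 33554432 20341896 (-121629928) 202899960 (-151904248) (-52720720) 59731144 19270832 0 rows_e h
  push_cast at h1
  convert h1 using 2

end

end Vale.Agent.P224.PO.M3
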